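import Crest.Agent.N250.A1.Gau

/-!
# Row 250 (helper44): A1, good points

If, off a set of small Gaussian mass, the points of a slice near `x` have two-sided empty balls of
radius `≫ r`, the Gaussian area at `(x, r²)` is almost at most `1`.  No orientation is used.
-/

set_option autoImplicit false
open MeasureTheory Set Filter Topology
open scoped ContDiff InnerProductSpace ENNReal NNReal
open Crest.GeometryTopology.MCF

noncomputable section

namespace Crest.Agent.N250.A1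

theorem norm_n {F : Mv} (hF : F.Reg) {p : ST} (hp : p ∈ F.M) : ‖F.n p‖ = 1 := by
  obtain ⟨W, φ, hW, h⟩ := hF p hp
  rw [h.n_eq p hW hp, norm_smul, norm_inv, norm_norm,
    inv_mul_cancel₀ (norm_ne_zero_iff.2 (h.ne p hW))]

/-- the two-sided ball condition confines the slice to the outside of a double cone -/
theorem reach_inner {F : Mv} {p : ST} {ρ : ℝ} (hρ : 0 < ρ) (hn : ‖F.n p‖ = 1) (h : F.Reach p ρ)
    {y : E} (hy : y ∈ F.sl p.2) : |⟪F.n p, y - p.1⟫_ℝ| ≤ ‖y - p.1‖ ^ 2 / (2 * ρ) := by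
  obtain ⟨h1, h2⟩ := h y hy
  rw [dist_eq_norm] at h1 h2
  have e1 : y - (p.1 + ρ • F.n p) = (y - p.1) - ρ • F.n p := by abel
  have e2 : y - (p.1 - ρ • F.n p) = (y - p.1) + ρ • F.n p := by abel
  rw [e1] at h1; rw [e2] at h2
  have h3 := pow_le_pow_left₀ hρ.le h1 2
  have h4 := pow_le_pow_left₀ hρ.le h2 2
  rw [norm_sub_sq_real, inner_smul_right, norm_smul, hn, Real.norm_eq_abs, abs_of_pos hρ,
    real_inner_comm] at h3
  rw [norm_add_sq_real, inner_smul_right, norm_smul, hn, Real.norm_eq_abs, abs_of_pos hρ,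
    real_inner_comm] at h4
  rw [le_div_iff₀ (by positivity), ← abs_of_pos (show 0 < 2 * ρ by positivity), ← abs_mul, abs_le]
  constructor <;> nlinarith

/-- converse of `reach_inner` -/
theorem reach_of_inner {F : Mv} {p : ST} {ρ : ℝ} (hρ : 0 < ρ) (hn : ‖F.n p‖ = 1)
    (h : ∀ y ∈ F.sl p.2, |⟪F.n p, y - p.1⟫_ℝ| ≤ ‖y - p.1‖ ^ 2 / (2 * ρ)) : F.Reach p ρ := by
  intro y hy
  have h1 := h y hy
  rw [le_div_iff₀ (by positivity), ← abs_of_pos (show 0 < 2 * ρ by positivity), ← abs_mul,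
    abs_le] at h1
  have e1 : y - (p.1 + ρ • F.n p) = (y - p.1) - ρ • F.n p := by abel
  have e2 : y - (p.1 - ρ • F.n p) = (y - p.1) + ρ • F.n p := by abel
  rw [dist_eq_norm, dist_eq_norm, e1, e2]
  constructor
  · refine (pow_le_pow_iff_left₀ hρ.le (norm_nonneg _) two_ne_zero).1 ?_
    rw [norm_sub_sq_real, inner_smul_right, norm_smul, hn, Real.norm_eq_abs, abs_of_pos hρ,
      real_inner_comm]
    nlinarith [h1.2]
  · refine (pow_le_pow_iff_left₀ hρ.le (norm_nonneg _) two_ne_zero).1 ?_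
    rw [norm_add_sq_real, inner_smul_right, norm_smul, hn, Real.norm_eq_abs, abs_of_pos hρ,
      real_inner_comm]
    nlinarith [h1.1]

theorem reach_mono {F : Mv} {p : ST} {ρ σ : ℝ} (hσ : 0 < σ) (hσρ : σ ≤ ρ) (hn : ‖F.n p‖ = 1)
    (h : F.Reach p ρ) : F.Reach p σ :=
  reach_of_inner hσ hn fun _ hy => (reach_inner (hσ.trans_le hσρ) hn h hy).trans (by gcongr)

theorem exists_basis₁ {n : E} (hn : ‖n‖ = 1) : ∃ b : OrthonormalBasis (Fin 3) ℝ E, b 0 = n := by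
  have h : Orthonormal ℝ (({0} : Set (Fin 3)).domRestrict fun _ => n) :=
    ⟨fun _ => hn, fun i j hij => absurd (Subsingleton.elim i j) hij⟩
  obtain ⟨b, hb⟩ := h.exists_orthonormalBasis_extension_of_card_eq (by simp)
  exact ⟨b, hb 0 rfl⟩

theorem exists_basis₂ {n m : E} (hn : ‖n‖ = 1) (hm : ‖m‖ = 1) (h : ⟪n, m⟫_ℝ = 0) :
    ∃ b : OrthonormalBasis (Fin 3) ℝ E, b 0 = n ∧ b 1 = m := by
  have h' : ⟪m, n⟫_ℝ = 0 := by rw [real_inner_comm, h]
  have ho : Orthonormal ℝ (({0, 1} : Set (Fin 3)).domRestrict ![n, m, 0]) := by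
    constructor
    · rintro ⟨i, rfl | rfl⟩ <;> simpa
    · rintro ⟨i, rfl | rfl⟩ ⟨j, rfl | rfl⟩ hij <;> first | exact absurd rfl hij | simpa
  obtain ⟨b, hb⟩ := ho.exists_orthonormalBasis_extension_of_card_eq (by simp)
  exact ⟨b, hb 0 (by simp), hb 1 (by simp)⟩

/-- a set inside a thin tube has small measure -/
theorem tube {S : Set E} {Λ : ℝ} (hΛ : 0 ≤ Λ)
    (h : ∀ y r, 0 < r → (μHE[2] : Measure E).restrict S (Metric.ball y r) ≤
      ENNReal.ofReal (Λ * r ^ 2))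
    (b : OrthonormalBasis (Fin 3) ℝ E) {x p : E} {R η : ℝ} (hη : 0 < η) (hp : p ∈ Metric.ball x R)
    (hS : ∀ y ∈ S, y ∈ Metric.ball x R → |⟪b 0, y - p⟫_ℝ| ≤ η ∧ |⟪b 1, y - p⟫_ℝ| ≤ η) :
    (μHE[2] : Measure E).restrict S (Metric.ball x R) ≤ ENNReal.ofReal (4 * Λ * η * (4 * R + η)) := by
  have hR : 0 < R := Metric.pos_of_mem_ball hp
  set N : ℕ := ⌊4 * R / η⌋₊ + 1 with hN
  have hcov : Metric.ball x R ∩ S ⊆
      ⋃ k ∈ Finset.range N, Metric.ball (p + ((k : ℝ) * η - 2 * R) • b 2) (2 * η) ∩ S := by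
    rintro y ⟨hy, hyS⟩
    obtain ⟨h0, h1⟩ := hS y hyS hy
    have hd : ‖y - p‖ < 2 * R := by
      rw [← dist_eq_norm]
      linarith [dist_triangle_right y p x, Metric.mem_ball.1 hy, Metric.mem_ball.1 hp]
    have h2 : |⟪b 2, y - p⟫_ℝ| < 2 * R := by
      refine (abs_real_inner_le_norm _ _).trans_lt ?_
      rwa [b.norm_eq_one, one_mul]
    rw [abs_lt] at h2
    set u : ℝ := (⟪b 2, y - p⟫_ℝ + 2 * R) / η with hu
    have hu0 : 0 ≤ u := div_nonneg (by linarith) hη.le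
    have hk1 : (⌊u⌋₊ : ℝ) ≤ u := Nat.floor_le hu0
    have hk2 : u < ⌊u⌋₊ + 1 := Nat.lt_floor_add_one u
    have hk3 : ⌊u⌋₊ ≤ ⌊4 * R / η⌋₊ := Nat.floor_mono (by rw [hu]; gcongr; linarith)
    simp only [mem_iUnion, Finset.mem_range]
    refine ⟨⌊u⌋₊, by omega, ?_, hyS⟩
    rw [Metric.mem_ball, dist_eq_norm]
    refine (pow_lt_pow_iff_left₀ (norm_nonneg _) (by positivity) two_ne_zero).1 ?_
    have e1 : y - (p + ((⌊u⌋₊ : ℝ) * η - 2 * R) • b 2) =
        (y - p) - ((⌊u⌋₊ : ℝ) * η - 2 * R) • b 2 := by abel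
    rw [e1, ← b.sum_sq_inner_right, Fin.sum_univ_three]
    have o02 : ⟪b 0, b 2⟫_ℝ = 0 := b.orthonormal.2 (by decide)
    have o12 : ⟪b 1, b 2⟫_ℝ = 0 := b.orthonormal.2 (by decide)
    have o22 : ⟪b 2, b 2⟫_ℝ = 1 := by rw [real_inner_self_eq_norm_sq, b.norm_eq_one]; norm_num
    rw [inner_sub_right (b 0) (y - p), inner_sub_right (b 1) (y - p), inner_sub_right (b 2) (y - p),
      inner_smul_right, inner_smul_right, inner_smul_right, o02, o12, o22]
    have e2 : ⟪b 2, y - p⟫_ℝ + 2 * R = u * η := by rw [hu]; field_simp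
    have e3 : ⟪b 2, y - p⟫_ℝ - ((⌊u⌋₊ : ℝ) * η - 2 * R) * 1 = (u - ⌊u⌋₊) * η := by linarith
    rw [e3]
    have h3 : ((u - ⌊u⌋₊) * η) ^ 2 ≤ η ^ 2 :=
      pow_le_pow_left₀ (mul_nonneg (by linarith) hη.le) (by nlinarith) 2
    have h4 := sq_le_sq' (abs_le.1 h0).1 (abs_le.1 h0).2
    have h5 := sq_le_sq' (abs_le.1 h1).1 (abs_le.1 h1).2
    nlinarith [sq_pos_of_pos hη]
  rw [Measure.restrict_apply Metric.isOpen_ball.measurableSet]
  refine (measure_mono hcov).trans ((measure_biUnion_finset_le _ _).trans ?_)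
  calc ∑ k ∈ Finset.range N, (μHE[2] : Measure E)
        (Metric.ball (p + ((k : ℝ) * η - 2 * R) • b 2) (2 * η) ∩ S)
      ≤ ∑ _k ∈ Finset.range N, ENNReal.ofReal (Λ * (2 * η) ^ 2) := by
        refine Finset.sum_le_sum fun k _ => ?_
        rw [← Measure.restrict_apply Metric.isOpen_ball.measurableSet]
        exact h _ _ (by positivity)
    _ = ENNReal.ofReal (N * (Λ * (2 * η) ^ 2)) := by
        rw [Finset.sum_const, Finset.card_range, nsmul_eq_mul,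
          ENNReal.ofReal_mul (Nat.cast_nonneg N), ENNReal.ofReal_natCast]
    _ ≤ _ := by
        refine ENNReal.ofReal_le_ofReal ?_
        have h1 : (N : ℝ) ≤ 4 * R / η + 1 := by
          rw [hN]; push_cast; gcongr; exact Nat.floor_le (by positivity)
        calc (N : ℝ) * (Λ * (2 * η) ^ 2) ≤ (4 * R / η + 1) * (Λ * (2 * η) ^ 2) := by gcongr
          _ = _ := by field_simp; ring

/-- the main part of A1: the mass of the good points in `B(x, R)` -/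
theorem core {S G : Set E} {n : E → E} {Λ θ δ η K R s : ℝ} {x : E} (hΛ : 0 ≤ Λ)
    (h : ∀ y r, 0 < r → (μHE[2] : Measure E).restrict S (Metric.ball y r) ≤
      ENNReal.ofReal (Λ * r ^ 2))
    (hθ : 0 < θ) (hθ1 : θ ≤ 1) (hη : 0 < η) (hs : 0 < s) (hK : 1 ≤ K)
    (hK' : 1 ≤ K ^ 2 * (1 - (2 * θ) ^ 2)) (hδ : 3 * (δ * (2 * R)) ≤ θ * η) (hδθ : δ ≤ θ)
    (hδ0 : 0 ≤ δ) (hη' : Λ * η * (4 * R + η) ≤ 3 * s)
    (hG : G ⊆ Metric.ball x R ∩ S) (hn : ∀ p ∈ G, ‖n p‖ = 1)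
    (hc : ∀ p ∈ G, ∀ y ∈ S, y ∈ Metric.ball x R → |⟪n p, y - p⟫_ℝ| ≤ δ * ‖y - p‖) :
    ∫⁻ y in closure G ∩ Metric.ball x R, ENNReal.ofReal (gau x s y)
      ∂(μHE[2] : Measure E).restrict S ≤ ENNReal.ofReal (K ^ 2) := by
  rcases G.eq_empty_or_nonempty with rfl | ⟨p₀, hp₀⟩
  · simp
  have hd : ∀ y ∈ Metric.ball x R, ∀ p ∈ Metric.ball x R, ‖y - p‖ ≤ 2 * R := fun y hy p hp => by
    rw [← dist_eq_norm]
    linarith [dist_triangle_right y p x, Metric.mem_ball.1 hy, Metric.mem_ball.1 hp]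
  by_cases hall : ∀ p ∈ G, ‖n p₀ - ⟪n p, n p₀⟫_ℝ • n p‖ ≤ θ
  · obtain ⟨b, hb⟩ := exists_basis₁ (hn p₀ hp₀)
    have h1 : ∀ p ∈ G, ∀ q ∈ G, |⟪b 0, p - q⟫_ℝ| ≤ 2 * θ * ‖p - q‖ := by
      intro p hp q hq
      have e1 : ⟪b 0, p - q⟫_ℝ = ⟪n p₀ - ⟪n q, n p₀⟫_ℝ • n q, p - q⟫_ℝ +
          ⟪n q, n p₀⟫_ℝ * ⟪n q, p - q⟫_ℝ := by
        rw [hb, inner_sub_left, real_inner_smul_left]; ring
      have h2 : |⟪n q, n p₀⟫_ℝ| ≤ 1 := by
        simpa [hn q hq, hn p₀ hp₀] using abs_real_inner_le_norm (n q) (n p₀)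
      have h3 := hc q hq p (hG hp).2 (hG hp).1
      have h4 := (abs_real_inner_le_norm (n p₀ - ⟪n q, n p₀⟫_ℝ • n q) (p - q)).trans
        (mul_le_mul_of_nonneg_right (hall q hq) (norm_nonneg _))
      rw [e1]
      refine (abs_add_le _ _).trans ?_
      rw [abs_mul]
      have h5 : |⟪n q, n p₀⟫_ℝ| * |⟪n q, p - q⟫_ℝ| ≤ 1 * (θ * ‖p - q‖) :=
        mul_le_mul h2 (h3.trans (by gcongr)) (abs_nonneg _) zero_le_one
      linarith
    refine le_trans ?_ (gau_graph b (zero_le_one.trans hK) hK' h1 x hs)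
    refine lintegral_mono' ?_ le_rfl
    exact Measure.restrict_mono inter_subset_left Measure.restrict_le_self
  · push Not at hall
    obtain ⟨p, hp, hw⟩ := hall
    set w := n p₀ - ⟪n p, n p₀⟫_ℝ • n p with hwd
    have hw0 : 0 < ‖w‖ := hθ.trans hw
    have hpp : ⟪n p, n p⟫_ℝ = 1 := by rw [real_inner_self_eq_norm_sq, hn p hp]; norm_num
    have ho : ⟪n p, ‖w‖⁻¹ • w⟫_ℝ = 0 := by
      rw [inner_smul_right, hwd, inner_sub_right, inner_smul_right, hpp]; ring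
    have hw1 : ‖‖w‖⁻¹ • w‖ = 1 := by
      rw [norm_smul, norm_inv, norm_norm, inv_mul_cancel₀ hw0.ne']
    obtain ⟨b, hb0, hb1⟩ := exists_basis₂ (hn p hp) hw1 ho
    have hR : 0 < R := Metric.pos_of_mem_ball (hG hp).1
    have hdd : 0 ≤ δ * (2 * R) := by positivity
    have key : ∀ q ∈ G, ∀ y ∈ S, y ∈ Metric.ball x R → |⟪n q, y - q⟫_ℝ| ≤ δ * (2 * R) :=
      fun q hq y hy hyb => (hc q hq y hy hyb).trans (by gcongr; exact hd y hyb q (hG hq).1)
    have ht := tube hΛ h b hη (hG hp).1 fun y hy hyb => by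
      have h1 := key p hp y hy hyb
      have h2 := key p₀ hp₀ y hy hyb
      have h3 := key p₀ hp₀ p (hG hp).2 (hG hp).1
      refine ⟨hb0 ▸ h1.trans (by nlinarith), ?_⟩
      have h4 : |⟪n p, n p₀⟫_ℝ| ≤ 1 := by
        simpa [hn p hp, hn p₀ hp₀] using abs_real_inner_le_norm (n p) (n p₀)
      have e1 : ⟪w, y - p⟫_ℝ = ⟪n p₀, y - p₀⟫_ℝ - ⟪n p₀, p - p₀⟫_ℝ -
          ⟪n p, n p₀⟫_ℝ * ⟪n p, y - p⟫_ℝ := by
        rw [hwd, inner_sub_left, real_inner_smul_left, ← inner_sub_right, sub_sub_sub_cancel_right]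
      have h5 : |⟪n p, n p₀⟫_ℝ * ⟪n p, y - p⟫_ℝ| ≤ 1 * (δ * (2 * R)) := by
        rw [abs_mul]; exact mul_le_mul h4 h1 (abs_nonneg _) zero_le_one
      have h6 : |⟪w, y - p⟫_ℝ| ≤ θ * η := by
        rw [e1, abs_le] at *
        constructor <;> linarith [h2.1, h2.2, h3.1, h3.2, h5.1, h5.2]
      rw [hb1, real_inner_smul_left, abs_mul, abs_inv, abs_norm, inv_mul_le_iff₀ hw0]
      exact h6.trans (by gcongr)
    calc ∫⁻ y in closure G ∩ Metric.ball x R, ENNReal.ofReal (gau x s y)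
          ∂(μHE[2] : Measure E).restrict S
        ≤ ∫⁻ _y in Metric.ball x R, ENNReal.ofReal ((4 * Real.pi * s)⁻¹)
          ∂(μHE[2] : Measure E).restrict S :=
          lintegral_mono' (Measure.restrict_mono inter_subset_right le_rfl)
            fun y => ENNReal.ofReal_le_ofReal (gau_le x hs y)
      _ ≤ ENNReal.ofReal ((4 * Real.pi * s)⁻¹) * ENNReal.ofReal (4 * Λ * η * (4 * R + η)) := by
          rw [setLIntegral_const]; gcongr
      _ ≤ _ := by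
          rw [← ENNReal.ofReal_mul (by positivity)]
          refine ENNReal.ofReal_le_ofReal ?_
          rw [inv_mul_le_iff₀ (by positivity)]
          have := Real.pi_gt_three
          have h1 : 1 ≤ K ^ 2 := one_le_pow₀ hK
          calc 4 * Λ * η * (4 * R + η) ≤ 4 * 3 * s * 1 := by linarith
            _ ≤ _ := by gcongr

/-- **A1** (lower integral form) -/
theorem good_lint (Λ e : ℝ) (he : 0 < e) : ∃ L Lam : ℝ, 1 ≤ L ∧ 1 ≤ Lam ∧
    ∀ (F : Mv) (t : ℝ) (x : E) (r : ℝ) (B : Set E), F.AR Λ → 0 < r →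
      (∀ y ∈ F.sl t, dist y x < L * r → y ∉ B → ‖F.n (y, t)‖ = 1 ∧ F.Reach (y, t) (Lam * r)) →
      ∫⁻ y, ENNReal.ofReal (gau x (r ^ 2) y) ∂F.mu t ≤ ENNReal.ofReal (1 + 2 * e) +
        ∫⁻ y in B ∩ Metric.ball x (L * r), ENNReal.ofReal (gau x (r ^ 2) y) ∂F.mu t := by
  set Λ' := max Λ 1 with hΛ'
  have hΛ1 : 1 ≤ Λ' := le_max_right _ _
  -- the radius
  obtain ⟨L, hL1, hL⟩ : ∃ L : ℝ, 1 ≤ L ∧ 120 * Λ' * Real.exp (-L ^ 2 / 8) ≤ e := by
    refine ⟨max 1 (960 * Λ' / e), le_max_left _ _, ?_⟩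
    set L := max 1 (960 * Λ' / e)
    have h1 : 1 ≤ L := le_max_left _ _
    have h2 : 960 * Λ' / e ≤ L := le_max_right _ _
    rw [div_le_iff₀ he] at h2
    have h3 := Real.add_one_le_exp (L ^ 2 / 8)
    rw [neg_div, Real.exp_neg, ← div_eq_mul_inv, div_le_iff₀ (Real.exp_pos _)]
    nlinarith [mul_le_mul_of_nonneg_left h3 he.le, mul_nonneg he.le (mul_nonneg (sub_nonneg.2 h1)
      (zero_le_one.trans h1))]
  set θ : ℝ := min (1 / 2) (e / (2 * (1 + e))) with hθd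
  have hθ : 0 < θ := lt_min (by norm_num) (by positivity)
  have hθ1 : θ ≤ 1 / 2 := min_le_left _ _
  have hθ2 : θ ≤ e / (2 * (1 + e)) := min_le_right _ _
  set η₀ : ℝ := (Λ' * (4 * L + 1))⁻¹ with hη₀d
  have hη₀ : 0 < η₀ := by positivity
  have hη₁ : η₀ ≤ 1 := inv_le_one_of_one_le₀ (by nlinarith)
  set Lam : ℝ := 6 * L ^ 2 / (θ * η₀) with hLam
  have hθη : θ * η₀ ≤ 1 := by nlinarith
  have hLL : L ^ 2 ≤ Lam * (θ * η₀) / 6 := by rw [hLam]; field_simp; rfl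
  have hLam1 : 1 ≤ Lam := by rw [hLam, le_div_iff₀ (by positivity)]; nlinarith
  refine ⟨L, Lam, hL1, hLam1, fun F t x r B hA hr hB => ?_⟩
  have hA' : ∀ y ρ, 0 < ρ → F.mu t (Metric.ball y ρ) ≤ ENNReal.ofReal (Λ' * ρ ^ 2) :=
    fun y ρ hρ => (hA t y ρ hρ).trans (ENNReal.ofReal_le_ofReal (by gcongr; exact le_max_left _ _))
  set G : Set E := (Metric.ball x (L * r) ∩ F.sl t) \ B with hG
  have hK : 1 ≤ √(1 + e) := Real.one_le_sqrt.2 (by linarith)
  have hK2 : √(1 + e) ^ 2 = 1 + e := Real.sq_sqrt (by linarith)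
  have h1 := core (S := F.sl t) (G := G) (n := fun y => F.n (y, t)) (x := x) (R := L * r)
    (s := r ^ 2) (δ := L / Lam) (η := η₀ * r) (zero_le_one.trans hΛ1) hA' hθ (by linarith)
    (by positivity) (by positivity) hK
    (by
      rw [hK2]
      rw [le_div_iff₀ (by positivity)] at hθ2
      nlinarith [mul_nonneg hθ.le (sub_nonneg.2 hθ1), mul_nonneg (mul_nonneg hθ.le
        (sub_nonneg.2 hθ1)) he.le])
    (by
      have : 3 * (L / Lam * (2 * (L * r))) = 6 * L ^ 2 / Lam * r := by field_simp; norm_num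
      rw [this, ← mul_assoc]
      gcongr
      rw [div_le_iff₀ (by positivity)]; linarith)
    (by
      rw [div_le_iff₀ (by positivity)]
      have : Lam * (θ * η₀) ≤ Lam * (θ * 1) := by gcongr
      nlinarith)
    (by positivity)
    (by
      have h2 : Λ' * η₀ * (4 * L + 1) = 1 := by rw [hη₀d]; field_simp
      have h3 : Λ' * η₀ * (4 * L + η₀) ≤ 1 := by rw [← h2]; gcongr
      calc Λ' * (η₀ * r) * (4 * (L * r) + η₀ * r) = Λ' * η₀ * (4 * L + η₀) * r ^ 2 := by ring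
        _ ≤ 3 * r ^ 2 := by gcongr; linarith)
    sdiff_subset (fun p hp => (hB p hp.1.2 hp.1.1 hp.2).1)
    (by
      intro p hp y hy hyb
      obtain ⟨h2, h3⟩ := hB p hp.1.2 hp.1.1 hp.2
      refine (reach_inner (by positivity) h2 h3 hy).trans ?_
      have h4 : ‖y - p‖ ≤ 2 * (L * r) := by
        rw [← dist_eq_norm]
        linarith [dist_triangle_right y p x, Metric.mem_ball.1 hyb, Metric.mem_ball.1 hp.1.1]
      calc ‖y - p‖ ^ 2 / (2 * (Lam * r)) = ‖y - p‖ / (2 * (Lam * r)) * ‖y - p‖ := by ring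
        _ ≤ 2 * (L * r) / (2 * (Lam * r)) * ‖y - p‖ := by gcongr
        _ = L / Lam * ‖y - p‖ := by congr 1; field_simp)
  rw [hK2] at h1
  have h2 := gau_tail hA' x (s := r ^ 2) (d := L * r) (by positivity) (by positivity)
  have h2' : -(L * r) ^ 2 / (8 * r ^ 2) = -L ^ 2 / 8 := by field_simp
  rw [h2'] at h2
  have hb : MeasurableSet (Metric.ball x (L * r)) := Metric.isOpen_ball.measurableSet
  have hc : MeasurableSet (closure G) := isClosed_closure.measurableSet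
  have h3 : (F.mu t).restrict ((closure G)ᶜ ∩ Metric.ball x (L * r)) ≤
      (F.mu t).restrict (B ∩ Metric.ball x (L * r)) := by
    rw [Measure.le_iff]
    intro A hA
    rw [Measure.restrict_apply hA, Measure.restrict_apply hA, Mv.mu,
      Measure.restrict_apply (hA.inter (hc.compl.inter hb))]
    refine le_trans (measure_mono ?_) (Measure.le_restrict_apply _ _)
    rintro y ⟨⟨hy1, hy2, hy3⟩, hy4⟩
    refine ⟨⟨hy1, ?_, hy3⟩, hy4⟩
    by_contra hy5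
    exact hy2 (subset_closure ⟨⟨hy3, hy4⟩, hy5⟩)
  rw [← lintegral_add_compl _ hb, ← lintegral_add_compl _ hc (μ := (F.mu t).restrict _),
    Measure.restrict_restrict hc, Measure.restrict_restrict hc.compl]
  calc _ ≤ ENNReal.ofReal (1 + e) + (∫⁻ y in B ∩ Metric.ball x (L * r),
        ENNReal.ofReal (gau x (r ^ 2) y) ∂F.mu t) + ENNReal.ofReal e :=
        add_le_add (add_le_add h1 (lintegral_mono' h3 le_rfl))
          (h2.trans (ENNReal.ofReal_le_ofReal hL))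
    _ = _ := by
        rw [add_right_comm, ← ENNReal.ofReal_add (by positivity) he.le]
        congr 2; ring

/-- **A1**: good points off a set of Gaussian mass `≤ e` give Gaussian area `≤ 1 + 3 e` -/
theorem good (Λ e : ℝ) (he : 0 < e) : ∃ L Lam : ℝ, 1 ≤ L ∧ 1 ≤ Lam ∧
    ∀ (F : Mv) (t : ℝ) (x : E) (r : ℝ) (B : Set E), F.Reg → F.AR Λ → 0 < r →
      (∀ y ∈ F.sl t, dist y x < L * r → y ∉ B → F.Reach (y, t) (Lam * r)) →
      ∫⁻ y in B ∩ Metric.ball x (L * r), ENNReal.ofReal (gau x (r ^ 2) y) ∂F.mu t ≤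
        ENNReal.ofReal e →
      F.Fs t x (r ^ 2) ≤ 1 + 3 * e := by
  obtain ⟨L, Lam, hL, hLam, h⟩ := good_lint Λ e he
  refine ⟨L, Lam, hL, hLam, fun F t x r B hF hA hr hB hm => ?_⟩
  refine Fs_le (by positivity) (by positivity) ?_
  refine (h F t x r B hA hr fun y hy h1 h2 => ⟨norm_n hF hy, hB y hy h1 h2⟩).trans ?_
  refine (add_le_add le_rfl hm).trans ?_
  rw [← ENNReal.ofReal_add (by positivity) he.le]
  exact ENNReal.ofReal_le_ofReal (by linarith)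

/-- A1 for the density ratio `Θ(X; r)` -/
theorem good_Fg (Λ e : ℝ) (he : 0 < e) : ∃ L Lam : ℝ, 1 ≤ L ∧ 1 ≤ Lam ∧
    ∀ (F : Mv) (X : ST) (r : ℝ) (B : Set E), F.Reg → F.AR Λ → 0 < r →
      (∀ y ∈ F.sl (X.2 - r ^ 2), dist y X.1 < L * r → y ∉ B →
        F.Reach (y, X.2 - r ^ 2) (Lam * r)) →
      ∫⁻ y in B ∩ Metric.ball X.1 (L * r), ENNReal.ofReal (gau X.1 (r ^ 2) y)
        ∂F.mu (X.2 - r ^ 2) ≤ ENNReal.ofReal e →
      F.Fg X r ≤ 1 + 3 * e := by
  obtain ⟨L, Lam, hL, hLam, h⟩ := good Λ e he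
  exact ⟨L, Lam, hL, hLam, fun F X r B => h F _ _ r B⟩

end Crest.Agent.N250.A1

end
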