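import Crest.Agent.N250.Defs

/-!
# Row 250 (helper44): Gaussian mass of Lipschitz graphs, Gaussian tails from area ratios
-/

set_option autoImplicit false
open MeasureTheory Set Filter Topology
open scoped ContDiff InnerProductSpace ENNReal NNReal
open Crest.GeometryTopology.MCF

noncomputable section

namespace Crest.Agent.N250.A1

/-- the Euclidean plane -/
abbrev E2 : Type := EuclideanSpace ℝ (Fin 2)

theorem gau_nonneg (y : E) {s : ℝ} (hs : 0 ≤ s) (x : E) : 0 ≤ gau y s x := by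
  unfold gau; positivity

theorem gau_pos (y : E) {s : ℝ} (hs : 0 < s) (x : E) : 0 < gau y s x := by
  unfold gau; positivity

theorem gau_cont (y : E) (s : ℝ) : Continuous (gau y s) := by
  unfold gau; fun_prop

theorem gau_meas (y : E) (s : ℝ) : Measurable fun x => ENNReal.ofReal (gau y s x) :=
  (gau_cont y s).measurable.ennreal_ofReal

theorem gau_le (y : E) {s : ℝ} (hs : 0 < s) (x : E) : gau y s x ≤ (4 * Real.pi * s)⁻¹ := by
  unfold gau
  have h1 : Real.exp (-‖x - y‖ ^ 2 / (4 * s)) ≤ 1 := by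
    rw [Real.exp_le_one_iff]
    exact div_nonpos_of_nonpos_of_nonneg (by simp) (by positivity)
  have h2 : 0 ≤ (4 * Real.pi * s)⁻¹ := by positivity
  nlinarith

/-- coordinates in the plane orthogonal to `b 0` -/
def prj (b : OrthonormalBasis (Fin 3) ℝ E) (y : E) : E2 := !₂[⟪b 1, y⟫_ℝ, ⟪b 2, y⟫_ℝ]

theorem prj_sub (b : OrthonormalBasis (Fin 3) ℝ E) (y z : E) :
    prj b (y - z) = prj b y - prj b z := by
  ext i; fin_cases i <;> simp [prj, inner_sub_right]

theorem prj_norm (b : OrthonormalBasis (Fin 3) ℝ E) (y : E) :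
    ‖y‖ ^ 2 = ⟪b 0, y⟫_ℝ ^ 2 + ‖prj b y‖ ^ 2 := by
  rw [← b.sum_sq_inner_right y, EuclideanSpace.real_norm_sq_eq, Fin.sum_univ_three,
    Fin.sum_univ_two]
  simp [prj]; ring

theorem prj_cont (b : OrthonormalBasis (Fin 3) ℝ E) : Continuous (prj b) := by
  unfold prj; fun_prop

/-- an expanding map to the plane does not lose area -/
theorem area_le_image {C : Set E} {f : E → E2} {K : ℝ} (hK : 0 ≤ K)
    (h : ∀ p ∈ C, ∀ q ∈ C, dist p q ≤ K * dist (f p) (f q)) :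
    (μHE[2] : Measure E) C ≤ ENNReal.ofReal (K ^ 2) * volume (f '' C) := by
  lift K to ℝ≥0 using hK
  have ha : AntilipschitzWith K (fun p : C => f p) :=
    AntilipschitzWith.of_le_mul_dist fun p q => h p p.2 q q.2
  have h1 := ha.le_hausdorffMeasure_image (d := (2 : ℕ)) (by positivity) univ
  have h2 : (μH[((2 : ℕ) : ℝ)] : Measure E) C = (μH[((2 : ℕ) : ℝ)] : Measure C) univ := by
    rw [← (isometry_subtype_coe (s := C)).hausdorffMeasure_image (Or.inl (by positivity)) univ]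
    simp
  have h3 : (fun p : C => f p) '' univ = f '' C := by
    ext w; simp
  rw [h3, ← h2] at h1
  rw [← EuclideanSpace.euclideanHausdorffMeasure_eq_volume 2,
    Measure.euclideanHausdorffMeasure_def, Measure.euclideanHausdorffMeasure_def]
  simp only [Measure.smul_apply, ENNReal.smul_def, smul_eq_mul]
  have h4 : ((K : ℝ≥0∞)) ^ (((2 : ℕ) : ℝ)) = ENNReal.ofReal ((K : ℝ) ^ 2) := by
    rw [ENNReal.rpow_natCast, ENNReal.ofReal_pow (NNReal.coe_nonneg K), ENNReal.ofReal_coe_nnreal]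
  rw [h4] at h1
  rw [mul_left_comm]
  gcongr

theorem lint_graph {C : Set E} {f : E → E2} (hf : Measurable f) {K : ℝ}
    (hK : 0 ≤ K) (h : ∀ p ∈ C, ∀ q ∈ C, dist p q ≤ K * dist (f p) (f q)) {g : E2 → ℝ≥0∞}
    (hg : Measurable g) :
    ∫⁻ y in C, g (f y) ∂(μHE[2] : Measure E) ≤ ENNReal.ofReal (K ^ 2) * ∫⁻ w, g w := by
  rw [← lintegral_map hg hf, ← smul_eq_mul, ← lintegral_smul_measure]
  refine lintegral_mono' ?_ le_rfl
  rw [Measure.le_iff]
  intro A hA
  rw [Measure.map_apply hf hA, Measure.restrict_apply (hf hA), Measure.smul_apply, smul_eq_mul]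
  refine (area_le_image hK fun p hp q hq => h p hp.2 q hq.2).trans ?_
  gcongr
  rintro _ ⟨p, hp, rfl⟩
  exact hp.1

theorem gauss2 (c : E2) {s : ℝ} (hs : 0 < s) :
    ∫⁻ w : E2, ENNReal.ofReal ((4 * Real.pi * s)⁻¹ * Real.exp (-‖w - c‖ ^ 2 / (4 * s))) = 1 := by
  have hb : (0 : ℝ) < (4 * s)⁻¹ := by positivity
  have h1 := GaussianFourier.integral_rexp_neg_mul_sq_norm (V := E2) hb
  have h2 : (Real.pi / (4 * s)⁻¹) ^ ((Module.finrank ℝ E2 : ℝ) / 2) = 4 * Real.pi * s := by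
    simp only [finrank_euclideanSpace, Fintype.card_fin]
    rw [show ((2 : ℕ) : ℝ) / 2 = 1 by norm_num, Real.rpow_one]
    field_simp
  rw [h2] at h1
  have h3 : ∫ w : E2, (4 * Real.pi * s)⁻¹ * Real.exp (-‖w - c‖ ^ 2 / (4 * s)) = 1 := by
    rw [integral_sub_right_eq_self
      (fun w : E2 => (4 * Real.pi * s)⁻¹ * Real.exp (-‖w‖ ^ 2 / (4 * s))) c, integral_const_mul]
    have : ∀ w : E2, -‖w‖ ^ 2 / (4 * s) = -(4 * s)⁻¹ * ‖w‖ ^ 2 := fun w => by ring
    simp_rw [this]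
    rw [h1]
    have : 4 * Real.pi * s ≠ 0 := by positivity
    field_simp
  rw [← ofReal_integral_eq_lintegral_ofReal (Integrable.of_integral_ne_zero (by rw [h3]; norm_num))
    (Eventually.of_forall fun w => by positivity), h3, ENNReal.ofReal_one]

/-- a set all of whose chords are almost orthogonal to `b 0` has Gaussian mass almost `≤ 1` -/
theorem gau_graph (b : OrthonormalBasis (Fin 3) ℝ E) {G : Set E} {ε K : ℝ} (hK : 0 ≤ K)
    (hε : 1 ≤ K ^ 2 * (1 - ε ^ 2))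
    (h : ∀ p ∈ G, ∀ q ∈ G, |⟪b 0, p - q⟫_ℝ| ≤ ε * ‖p - q‖) (x : E) {s : ℝ} (hs : 0 < s) :
    ∫⁻ y in closure G, ENNReal.ofReal (gau x s y) ∂(μHE[2] : Measure E) ≤
      ENNReal.ofReal (K ^ 2) := by
  have h1 : ∀ p ∈ G, ∀ q ∈ G, dist p q ≤ K * dist (prj b p) (prj b q) := by
    intro p hp q hq
    rw [dist_eq_norm, dist_eq_norm, ← prj_sub]
    have h2 := prj_norm b (p - q)
    have h3 : ⟪b 0, p - q⟫_ℝ ^ 2 ≤ (ε * ‖p - q‖) ^ 2 := by
      rw [← sq_abs]; exact pow_le_pow_left₀ (abs_nonneg _) (h p hp q hq) 2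
    refine (pow_le_pow_iff_left₀ (norm_nonneg _) (by positivity) two_ne_zero).1 ?_
    have h4 : (1 - ε ^ 2) * ‖p - q‖ ^ 2 ≤ ‖prj b (p - q)‖ ^ 2 := by nlinarith
    calc ‖p - q‖ ^ 2 = 1 * ‖p - q‖ ^ 2 := by ring
      _ ≤ K ^ 2 * (1 - ε ^ 2) * ‖p - q‖ ^ 2 := by gcongr
      _ = K ^ 2 * ((1 - ε ^ 2) * ‖p - q‖ ^ 2) := by ring
      _ ≤ K ^ 2 * ‖prj b (p - q)‖ ^ 2 := by gcongr
      _ = (K * ‖prj b (p - q)‖) ^ 2 := by ring
  have h2 : ∀ p ∈ closure G, ∀ q ∈ closure G, dist p q ≤ K * dist (prj b p) (prj b q) := by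
    have hc := prj_cont b
    have hcl : IsClosed {z : E × E | dist z.1 z.2 ≤ K * dist (prj b z.1) (prj b z.2)} :=
      isClosed_le (continuous_fst.dist continuous_snd)
        (continuous_const.mul ((hc.comp continuous_fst).dist (hc.comp continuous_snd)))
    intro p hp q hq
    have h5 : (p, q) ∈ closure (G ×ˢ G) := by rw [closure_prod_eq]; exact ⟨hp, hq⟩
    have h6 : G ×ˢ G ⊆ {z : E × E | dist z.1 z.2 ≤ K * dist (prj b z.1) (prj b z.2)} :=
      fun z hz => h1 z.1 hz.1 z.2 hz.2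
    have h7 := closure_minimal h6 hcl h5
    rw [Set.mem_ofPred_eq] at h7
    exact h7
  have hg : Continuous fun w : E2 =>
      (4 * Real.pi * s)⁻¹ * Real.exp (-‖w - prj b x‖ ^ 2 / (4 * s)) := by
    generalize prj b x = c
    fun_prop
  have h3 := lint_graph (prj_cont b).measurable hK h2 hg.measurable.ennreal_ofReal
  rw [gauss2 _ hs, mul_one] at h3
  refine le_trans (lintegral_mono fun y => ENNReal.ofReal_le_ofReal ?_) h3
  unfold gau
  have h4 := prj_norm b (y - x)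
  rw [prj_sub] at h4
  have h5 : ‖prj b y - prj b x‖ ^ 2 ≤ ‖y - x‖ ^ 2 := by nlinarith [sq_nonneg ⟪b 0, y - x⟫_ℝ]
  refine mul_le_mul_of_nonneg_left (Real.exp_le_exp.2 ?_) (by positivity)
  exact div_le_div_of_nonneg_right (neg_le_neg h5) (by positivity)

/-- dyadic majorant of the Gaussian -/
theorem gau_le_tsum (x : E) {s : ℝ} (hs : 0 < s) (y : E) :
    ENNReal.ofReal (gau x s y) ≤ ∑' k : ℕ, (Metric.ball x (2 ^ k * √s)).indicator
      (fun _ => ENNReal.ofReal ((4 * Real.pi * s)⁻¹ * (512 / 16 ^ k))) y := by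
  classical
  have hq : 0 < √s := Real.sqrt_pos.2 hs
  have hex : ∃ k : ℕ, dist y x < 2 ^ k * √s := by
    obtain ⟨k, hk⟩ := pow_unbounded_of_one_lt (dist y x / √s) (one_lt_two (α := ℝ))
    exact ⟨k, by rwa [div_lt_iff₀ hq] at hk⟩
  have hk := Nat.find_spec hex
  refine le_trans ?_ (ENNReal.le_tsum (Nat.find hex))
  rw [indicator_of_mem (Metric.mem_ball.2 hk)]
  refine ENNReal.ofReal_le_ofReal ?_
  unfold gau
  gcongr
  rcases h0 : Nat.find hex with _ | j
  · have : Real.exp (-‖y - x‖ ^ 2 / (4 * s)) ≤ 1 := by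
      rw [Real.exp_le_one_iff]
      exact div_nonpos_of_nonpos_of_nonneg (by simp) (by positivity)
    norm_num; linarith
  · have hj : ¬ dist y x < 2 ^ j * √s := Nat.find_min hex (by omega)
    rw [not_lt, dist_eq_norm] at hj
    have h1 : (4 : ℝ) ^ j * s ≤ ‖y - x‖ ^ 2 := by
      have := pow_le_pow_left₀ (by positivity) hj 2
      rw [mul_pow, Real.sq_sqrt hs.le, ← pow_mul, mul_comm j 2, pow_mul] at this
      norm_num at this ⊢; exact this
    set u : ℝ := ‖y - x‖ ^ 2 / (4 * s) with hu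
    have h2 : (4 : ℝ) ^ j / 4 ≤ u := by
      rw [hu, div_le_div_iff₀ (by norm_num) (by positivity)]; nlinarith
    have h3 : u ^ 2 / 2 ≤ Real.exp u := by
      have := Real.pow_div_factorial_le_exp u (le_trans (by positivity) h2) 2
      simpa using this
    have h4 : ((4 : ℝ) ^ j / 4) ^ 2 ≤ u ^ 2 := pow_le_pow_left₀ (by positivity) h2 2
    have h5 : ((4 : ℝ) ^ j) ^ 2 = 16 ^ j := by rw [← pow_mul, mul_comm j 2, pow_mul]; norm_num
    have h6 : (16 : ℝ) ^ j / 32 ≤ Real.exp u := by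
      rw [div_pow, h5] at h4; linarith
    rw [neg_div, ← hu, Real.exp_neg, inv_eq_one_div, div_le_div_iff₀ (Real.exp_pos _)
      (by positivity), pow_succ]
    linarith

/-- area ratios bound the Gaussian mass -/
theorem gau_total {μ : Measure E} {Λ : ℝ}
    (h : ∀ y r, 0 < r → μ (Metric.ball y r) ≤ ENNReal.ofReal (Λ * r ^ 2)) (x : E) {s : ℝ}
    (hs : 0 < s) : ∫⁻ y, ENNReal.ofReal (gau x s y) ∂μ ≤ ENNReal.ofReal (60 * Λ) := by
  have hq : 0 < √s := Real.sqrt_pos.2 hs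
  rcases le_or_gt Λ 0 with hΛ | hΛ
  · have : μ = 0 := by
      rw [← Measure.measure_univ_eq_zero, ← Metric.iUnion_ball_nat_succ x]
      refine measure_iUnion_null fun k => le_antisymm ?_ zero_le
      refine (h x _ (by positivity)).trans ?_
      rw [ENNReal.ofReal_eq_zero.2 (mul_nonpos_of_nonpos_of_nonneg hΛ (by positivity))]
    simp [this]
  refine (lintegral_mono (gau_le_tsum x hs)).trans ?_
  rw [lintegral_tsum fun k => (measurable_const.indicator Metric.isOpen_ball.measurableSet).aemeasurable]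
  have h1 : ∀ k : ℕ, ∫⁻ y, (Metric.ball x (2 ^ k * √s)).indicator
      (fun _ => ENNReal.ofReal ((4 * Real.pi * s)⁻¹ * (512 / 16 ^ k))) y ∂μ ≤
      ENNReal.ofReal (45 * Λ * (1 / 4) ^ k) := by
    intro k
    rw [lintegral_indicator_const Metric.isOpen_ball.measurableSet]
    refine (mul_le_mul_right (h x _ (by positivity)) _).trans ?_
    rw [← ENNReal.ofReal_mul (by positivity)]
    refine ENNReal.ofReal_le_ofReal ?_
    have h16 : (16 : ℝ) ^ k = 4 ^ k * 4 ^ k := by rw [← mul_pow]; norm_num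
    have h2 : ((2 : ℝ) ^ k * √s) ^ 2 = 4 ^ k * s := by
      rw [mul_pow, Real.sq_sqrt hs.le, ← pow_mul, mul_comm k 2, pow_mul]; norm_num
    rw [h2, h16, one_div, inv_pow]
    have h4 : (0 : ℝ) < 4 ^ k := by positivity
    have hpi := Real.pi_gt_three
    have e1 : (4 * Real.pi * s)⁻¹ * (512 / (4 ^ k * 4 ^ k)) * (Λ * (4 ^ k * s)) =
        (128 / Real.pi) * Λ * (4 ^ k)⁻¹ := by field_simp; norm_num
    rw [e1]
    have : 128 / Real.pi ≤ 45 := by rw [div_le_iff₀ Real.pi_pos]; linarith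
    gcongr
  refine (ENNReal.tsum_le_tsum h1).trans ?_
  have hsum : HasSum (fun k : ℕ => 45 * Λ * (1 / 4 : ℝ) ^ k) (45 * Λ * (1 - 1 / 4)⁻¹) :=
    (hasSum_geometric_of_lt_one (by norm_num) (by norm_num)).mul_left _
  rw [← ENNReal.ofReal_tsum_of_nonneg (fun k => by positivity) hsum.summable, hsum.tsum_eq]
  exact ENNReal.ofReal_le_ofReal (by norm_num; linarith)

theorem gau_far (x : E) {s d : ℝ} (hs : 0 < s) (hd : 0 ≤ d) {y : E} (hy : d ≤ dist y x) :
    gau x s y ≤ 2 * Real.exp (-d ^ 2 / (8 * s)) * gau x (2 * s) y := by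
  unfold gau
  rw [dist_eq_norm] at hy
  have h1 : d ^ 2 ≤ ‖y - x‖ ^ 2 := pow_le_pow_left₀ hd hy 2
  have h2 : Real.exp (-‖y - x‖ ^ 2 / (4 * s)) ≤
      Real.exp (-d ^ 2 / (8 * s)) * Real.exp (-‖y - x‖ ^ 2 / (4 * (2 * s))) := by
    rw [← Real.exp_add, Real.exp_le_exp]
    have : -‖y - x‖ ^ 2 / (4 * s) = -‖y - x‖ ^ 2 / (8 * s) + -‖y - x‖ ^ 2 / (4 * (2 * s)) := by
      field_simp; ring
    rw [this]
    gcongr
  have h3 : (4 * Real.pi * s)⁻¹ = 2 * (4 * Real.pi * (2 * s))⁻¹ := by field_simp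
  have h4 : 0 ≤ (4 * Real.pi * (2 * s))⁻¹ := by positivity
  rw [h3]
  nlinarith [mul_le_mul_of_nonneg_left h2 h4]

/-- Gaussian tail -/
theorem gau_tail {μ : Measure E} {Λ : ℝ}
    (h : ∀ y r, 0 < r → μ (Metric.ball y r) ≤ ENNReal.ofReal (Λ * r ^ 2)) (x : E) {s d : ℝ}
    (hs : 0 < s) (hd : 0 ≤ d) :
    ∫⁻ y in (Metric.ball x d)ᶜ, ENNReal.ofReal (gau x s y) ∂μ ≤
      ENNReal.ofReal (120 * Λ * Real.exp (-d ^ 2 / (8 * s))) := by
  calc ∫⁻ y in (Metric.ball x d)ᶜ, ENNReal.ofReal (gau x s y) ∂μ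
      ≤ ∫⁻ y in (Metric.ball x d)ᶜ, ENNReal.ofReal (2 * Real.exp (-d ^ 2 / (8 * s))) *
          ENNReal.ofReal (gau x (2 * s) y) ∂μ := by
        refine setLIntegral_mono' Metric.isOpen_ball.measurableSet.compl fun y hy => ?_
        rw [← ENNReal.ofReal_mul (by positivity)]
        exact ENNReal.ofReal_le_ofReal (gau_far x hs hd (by simpa using hy))
    _ ≤ ENNReal.ofReal (2 * Real.exp (-d ^ 2 / (8 * s))) *
          ∫⁻ y, ENNReal.ofReal (gau x (2 * s) y) ∂μ := by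
        rw [lintegral_const_mul _ (gau_meas _ _)]
        gcongr
        exact Measure.restrict_le_self
    _ ≤ ENNReal.ofReal (2 * Real.exp (-d ^ 2 / (8 * s))) * ENNReal.ofReal (60 * Λ) := by
        gcongr; exact gau_total h x (by positivity)
    _ = _ := by rw [← ENNReal.ofReal_mul (by positivity)]; congr 1; ring

theorem gau_integrable {μ : Measure E} {Λ : ℝ}
    (h : ∀ y r, 0 < r → μ (Metric.ball y r) ≤ ENNReal.ofReal (Λ * r ^ 2)) (x : E) {s : ℝ}
    (hs : 0 < s) : Integrable (gau x s) μ :=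
  ⟨(gau_cont x s).aestronglyMeasurable,
    (hasFiniteIntegral_iff_ofReal (Eventually.of_forall (gau_nonneg x hs.le))).2
      ((gau_total h x hs).trans_lt ENNReal.ofReal_lt_top)⟩

/-- the Gaussian area as a lower integral -/
theorem Fs_eq (F : Mv) (t : ℝ) (x : E) {s : ℝ} (hs : 0 ≤ s) :
    F.Fs t x s = (∫⁻ y, ENNReal.ofReal (gau x s y) ∂F.mu t).toReal :=
  integral_eq_lintegral_of_nonneg_ae (Eventually.of_forall (gau_nonneg x hs))
    (gau_cont x s).aestronglyMeasurable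

theorem Fs_le {F : Mv} {t : ℝ} {x : E} {s c : ℝ} (hs : 0 ≤ s) (hc : 0 ≤ c)
    (h : ∫⁻ y, ENNReal.ofReal (gau x s y) ∂F.mu t ≤ ENNReal.ofReal c) : F.Fs t x s ≤ c := by
  rw [Fs_eq F t x hs]; exact ENNReal.toReal_le_of_le_ofReal hc h

theorem ofReal_Fs {F : Mv} {Λ : ℝ} (h : F.AR Λ) (t : ℝ) (x : E) {s : ℝ} (hs : 0 < s) :
    ENNReal.ofReal (F.Fs t x s) = ∫⁻ y, ENNReal.ofReal (gau x s y) ∂F.mu t := by
  rw [Fs_eq F t x hs.le, ENNReal.ofReal_toReal
    ((gau_total (h t) x hs).trans_lt ENNReal.ofReal_lt_top).ne]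

theorem Fs_le_AR {F : Mv} {Λ : ℝ} (hΛ : 0 ≤ Λ) (h : F.AR Λ) (t : ℝ) (x : E) {s : ℝ}
    (hs : 0 < s) : F.Fs t x s ≤ 60 * Λ :=
  Fs_le hs.le (by positivity) (gau_total (h t) x hs)

end Crest.Agent.N250.A1

end
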